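import Vale.Agent.P286EL.Tw
import Vale.Agent.P286EN.Grp

/-!
# The twist by the line bundle of order two has no cohomology on the chart `b`
-/

set_option linter.all false

namespace Vale.Agent.P286E64

open Matrix Vale.Agent.P286 Vale.Agent.P286E Vale.Agent.P286EN Vale.Agent.P286EB Vale.Agent.P286EL
open Vale.Agent.P286ER (On IsOb)

noncomputable section

attribute [-instance] HahnSeries.powerSeriesAlgebra

variable {A : Type} [CommRing A] [Algebra ℂ A] {N : ℕ} {E : Ell}

/-- A regular function with a pole of order at most three. -/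
theorem reg_three {θ : Ls A} (h : E.Reg θ) (h3 : Ord (-3) θ) :
    θ = HahnSeries.C (θ.coeff 0) + HahnSeries.C (θ.coeff (-2)) * xs A +
      HahnSeries.C (θ.coeff (-3)) * ys E A := by
  obtain ⟨p, hp, q, hq, rfl⟩ := (reg_iff E).1 h
  obtain ⟨h1, h2⟩ := ysep1 (E := E) hp hq (by rwa [mul_comm])
  have e1 := px_eq_C hq (h2.mono (by norm_num))
  have h4 : Ord (-2) p := ord_succ h1 (px_odd hp (by norm_num))
  have hp' : p - HahnSeries.C (p.coeff (-2)) * xs A ∈ Px A :=
    (Px A).sub_mem hp ((Px A).mul_mem (C_mem_Px _) xs_mem_Px)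
  have h5 : Ord (-1) (p - HahnSeries.C (p.coeff (-2)) * xs A) :=
    ord_succ (h4.sub ((Ord.C _).mul_left ord_xs)) (by
      rw [HahnSeries.coeff_sub, C_mul, HahnSeries.coeff_smul, xs_coeff, smul_eq_mul, mul_one,
        sub_self])
  have e2 := px_eq_C hp' h5
  have x0 : (xs A).coeff 0 = 0 := HahnSeries.coeff_single_of_ne (by norm_num)
  rw [HahnSeries.coeff_sub, C_mul, HahnSeries.coeff_smul, x0, smul_zero, sub_zero, ← C_mul] at e2
  generalize q.coeff 0 = c at e1
  subst e1
  rw [HahnSeries.coeff_add, HahnSeries.coeff_add, HahnSeries.coeff_add, C_mul c,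
    HahnSeries.coeff_smul, HahnSeries.coeff_smul, HahnSeries.coeff_smul,
    ys_coeff_zero E (k := 0) (by norm_num) (by norm_num),
    ys_coeff_zero E (k := -2) (by norm_num) (by norm_num), ys_coeff,
    px_odd hp (k := -3) (by norm_num), smul_zero, add_zero, add_zero, zero_add, smul_eq_mul,
    mul_one, C_mul c]
  linear_combination e2

/-- The value of a regular function at the point of order two. -/
theorem reg_at (e : Rt E) {r : Ls A} (h : E.Reg r) : ∃ (c : A) (p q : Ls A), p ∈ Px A ∧ q ∈ Px A ∧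
    r = HahnSeries.C c + (xs A - cc A e.e) * p + ys E A * q := by
  obtain ⟨_, ⟨p, rfl⟩, q, hq, rfl⟩ := (reg_iff E).1 h
  obtain ⟨p', hp'⟩ := Polynomial.X_sub_C_dvd_sub_C_eval (p := p) (a := ea e A)
  have h1 := congrArg (evx A) hp'
  rw [map_sub, map_mul, map_sub, evx_C, evx_C, evx_X] at h1
  exact ⟨p.eval (ea e A), evx A p', q, ⟨p', rfl⟩, hq, by rw [cc_e]; linear_combination h1⟩

theorem eq_zero_of_dvd (e : Rt E) {c : A} {q : Ls A} (hq : q ∈ Px A)
    (h : HahnSeries.C c = (xs A - cc A e.e) * q) : c = 0 := by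
  obtain ⟨q, rfl⟩ := hq
  have h1 : Polynomial.C c = (Polynomial.X - Polynomial.C (ea e A)) * q := evx_inj (by
    rw [map_mul, map_sub, evx_C, evx_C, evx_X, h, cc_e])
  have h2 := congrArg (Polynomial.eval (ea e A)) h1
  simpa using h2

/-- The value of `θ` at the point of order two. -/
def l0 (e : Rt E) (A : Type) [CommRing A] [Algebra ℂ A] : Ls A →ₗ[A] A where
  toFun θ := θ.coeff 0 + θ.coeff (-2) * ea e A
  map_add' u w := by
    rw [HahnSeries.coeff_add, HahnSeries.coeff_add]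
    ring
  map_smul' c w := by
    rw [HahnSeries.coeff_smul, HahnSeries.coeff_smul, RingHom.id_apply, smul_eq_mul, smul_eq_mul,
      smul_eq_mul]
    ring

theorem l0_apply (e : Rt E) (θ : Ls A) : l0 e A θ = θ.coeff 0 + θ.coeff (-2) * ea e A := rfl

theorem mem_of_gen {n : ℕ} {M : Submodule A (Fin N → Ls A)} (hM : Stab (Rg E A) M)
    {S : Matrix (Fin N) (Fin n) (Ls A)} (hS : ∀ q, (fun i => S i q) ∈ M) {u : Fin n → Ls A}
    (hu : ∀ q, u q ∈ Rg E A) : S *ᵥ u ∈ M := by
  have h : S *ᵥ u = ∑ j, u j • fun i => S i j := by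
    funext i
    rw [Finset.sum_apply]
    exact Finset.sum_congr (s₁ := Finset.univ) (f := fun j => S i j * u j) rfl fun j _ =>
      mul_comm (S i j) (u j)
  rw [h]
  exact M.sum_mem fun j _ => hM _ (hu j) _ (hS j)

theorem ord_gen {n : ℕ} {S : Matrix (Fin N) (Fin n) (Ls A)}
    (hS : ∀ q, (fun i => S i q) ∈ On N A (-1)) (c : Fin n → A) (i : Fin N) :
    Ord (-1) ((S *ᵥ (HahnSeries.C ∘ c)) i) :=
  OrdM.mulVec (a := -1) (b := 0) (fun i q => hS q i) (fun _ => Ord.C _) i

theorem cpb (hC : CRD) : CPB := by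
  intro E e A _ _ N hN v M hv hM hs hvol hu
  obtain ⟨w, hw⟩ := hu.exists_left_inv
  have hθ : E.Reg (Th v) := Th_mem hv.1 (Rm E A) fun m hm => hvol m fun i => hM ▸ hm i
  have e0 := reg_three hθ ((Th_ord hv.1).mono (by omega))
  obtain ⟨hsup, n, S, D, hS, hSD, -, hD, hH⟩ := hC E A N v M hv hM hvol (w • l0 e A) hw
  have hx : xs A - cc A e.e ∈ Rg E A := Px_le_Rg E (xe_mem _)
  have hw' : HahnSeries.C w * (HahnSeries.C ((Th v).coeff 0) +
      HahnSeries.C ((Th v).coeff (-2)) * cc A e.e) = (1 : Ls A) := by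
    rw [cc_e, ← map_mul, ← map_add, ← map_mul, hw, map_one]
  generalize (Th v).coeff 0 = α at e0 hw hw'
  generalize (Th v).coeff (-2) = β at e0 hw hw'
  generalize (Th v).coeff (-3) = γ at e0
  refine cpl_of (fun m hm h0 => ?_) fun z => ?_
  · obtain ⟨h1, h2⟩ := mem_tw_one.1 hm
    obtain ⟨c, hc, hc'⟩ := hH (j1 e A • m) ⟨h1, fun i => (ord_sr _).mul' (h0 i)⟩
    have hc0 : c = 0 := funext fun q => by
      obtain ⟨p, hp, r, hr, h3⟩ := (reg_iff E).1 (hD _ h2 q)
      have h4 := congrFun hc' q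
      rw [mulVec_smul, Pi.smul_apply, smul_eq_mul] at h3 h4
      rw [Pi.smul_apply, smul_eq_mul, Function.comp_apply, e0] at h4
      have h5 := (yfree1 (E := E)
        (p := (xs A - cc A e.e) * (p - HahnSeries.C γ * HahnSeries.C (c q) * gx e A))
        (q := (xs A - cc A e.e) * (r - HahnSeries.C β * HahnSeries.C (c q)) -
          (HahnSeries.C α + HahnSeries.C β * cc A e.e) * HahnSeries.C (c q))
        ((Px A).mul_mem (xe_mem _) ((Px A).sub_mem hp ((Px A).mul_mem
          ((Px A).mul_mem (C_mem_Px _) (C_mem_Px _)) (gx_mem e))))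
        ((Px A).sub_mem ((Px A).mul_mem (xe_mem _) ((Px A).sub_mem hr
          ((Px A).mul_mem (C_mem_Px _) (C_mem_Px _)))) ((Px A).mul_mem ((Px A).add_mem (C_mem_Px _)
            ((Px A).mul_mem (C_mem_Px _) (cc_mem _))) (C_mem_Px _))) (by
          linear_combination (-(xs A - cc A e.e)) * h3 + ys E A * h4 +
            HahnSeries.C γ * HahnSeries.C (c q) * yy (A := A) e -
            (j2 e A * (D *ᵥ m) q) * j1_j1 (A := A) e + (j1 e A * (D *ᵥ m) q) * j1_j2 (A := A) e)).2
      exact eq_zero_of_dvd e (q := HahnSeries.C w * (r - HahnSeries.C β * HahnSeries.C (c q)))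
        ((Px A).mul_mem (C_mem_Px _) ((Px A).sub_mem hr ((Px A).mul_mem (C_mem_Px _) (C_mem_Px _))))
        (by linear_combination (-HahnSeries.C w) * h5 - HahnSeries.C (c q) * hw')
    have h6 : (HahnSeries.C ∘ (0 : Fin n → A) : Fin n → Ls A) = 0 := funext fun _ => map_zero _
    rw [hc0, h6, mulVec_zero] at hc
    rw [← one_smul (Ls A) m, ← j1_ji e, mul_comm, mul_smul, hc, smul_zero]
  · obtain ⟨m1, h1, o, ho, h2⟩ := Submodule.mem_sup.1 (hsup ▸ Submodule.mem_top :
      j1 e A • z ∈ M ⊔ On N A (-1))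
    choose c p q hp hq h3 using fun k => reg_at e (hD m1 h1 k)
    have h4 : D *ᵥ m1 = HahnSeries.C ∘ c + (xs A - cc A e.e) • p + ys E A • q := funext h3
    have h5 := congrArg (S *ᵥ ·) h4
    beta_reduce at h5
    rw [mulVec_mulVec, hSD, smul_mulVec, one_mulVec, mulVec_add, mulVec_add, mulVec_smul,
      mulVec_smul, e0] at h5
    have hp' := mem_of_gen hs (fun q => (hS q).1) fun k => Px_le_Rg E (hp k)
    have hq' := mem_of_gen hs (fun q => (hS q).1) fun k => Px_le_Rg E (hq k)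
    have hC : ∀ a : A, (HahnSeries.C a : Ls A) ∈ Rg E A := fun a => Px_le_Rg E (C_mem_Px a)
    refine ⟨j1 e A • (HahnSeries.C w : Ls A) • (S *ᵥ p - (HahnSeries.C β : Ls A) • m1) +
      j2 e A • (HahnSeries.C w : Ls A) • (S *ᵥ q - (HahnSeries.C γ : Ls A) • m1), ?_, fun i => ?_⟩
    · rw [tw_one hs]
      exact ⟨_, hs _ (hC w) _ (M.sub_mem hp' (hs _ (hC β) _ h1)), _,
        hs _ (hC w) _ (M.sub_mem hq' (hs _ (hC γ) _ h1)), rfl⟩
    · have h6 := (ord_sI (ea e A)).mul' ((ho i).add ((Ord.C w).mul_left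
        (ord_gen (fun q => (hS q).2) c i)))
      have h7 := congrFun h2 i
      have h8 := congrFun h5 i
      simp only [Pi.add_apply, Pi.sub_apply, Pi.smul_apply, smul_eq_mul] at h7 h8 ⊢
      refine (congrArg (Ord 0) ?_).mp h6
      change ji e A * _ = _
      have k1 := j1_ji (A := A) e
      have k2 := j1_j1 (A := A) e
      have k3 : j2 e A = ys E A * ji e A := rfl
      rw [k3]
      linear_combination ji e A * h7 + z i * k1 - ji e A * HahnSeries.C w * h8 +
        ji e A * m1 i * hw' + (HahnSeries.C w * ((S *ᵥ p) i - HahnSeries.C β * m1 i)) *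
          (ji e A * k2 - j1 e A * k1)

end

end Vale.Agent.P286E64
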