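import Vale.Agent.P286E64.Nfo
import Vale.Agent.P286EB.Crd

/-!
# The chart `b`: unconditional statements
-/

namespace Vale.Agent.P286E64

open Vale.Agent.P286E Vale.Agent.P286EB

theorem cpb' : CPB := cpb crd

theorem nfo2b' : NFO SL2 .b := nfo2b crd

end Vale.Agent.P286E64
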