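import Vale.Agent.P286E64.Cpb
import Vale.Agent.P286EF.Pl

/-!
# The normal form on the chart `b` for `SL_2`
-/

set_option linter.all false

namespace Vale.Agent.P286E64

open Matrix Vale.Agent.P286 Vale.Agent.P286E Vale.Agent.P286EN Vale.Agent.P286EB Vale.Agent.P286EL
open Vale.Agent.P286ER (On IsOb)

noncomputable section

attribute [-instance] HahnSeries.powerSeriesAlgebra

variable {A : Type} [CommRing A] [Algebra ℂ A] {N : ℕ} {E : Ell} (e : Rt E)

theorem b_eq : algebraMap ℂ A E.b = -(ea e A ^ 3 + algebraMap ℂ A E.a * ea e A) := by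
  have h : E.b = -(e.e ^ 3 + E.a * e.e) := by linear_combination e.rt
  simp only [ea, h, map_neg, map_add, map_pow, map_mul]

theorem d_eq : da e A = 3 * ea e A ^ 2 + algebraMap ℂ A E.a := by
  simp only [da, ea, Rt.d, map_add, map_pow, map_mul, map_ofNat]

theorem d_unit : IsUnit (da e A) := (IsUnit.mk0 _ e.d_ne).map _

theorem f_fac (p : A) : P286EN.fv E p = (p - ea e A) * gv e p := by
  rw [P286EN.fv, b_eq e, gv]
  ring

theorem fh_fac (θ : Ls A) : fh E θ = l0 e A θ * (θ.coeff 0 ^ 2 - ea e A * θ.coeff 0 * θ.coeff (-2) +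
    (ea e A ^ 2 + algebraMap ℂ A E.a) * θ.coeff (-2) ^ 2) := by
  rw [fh, l0_apply, b_eq e]
  ring

theorem unit_l0 {θ : Ls A} (h : IsUnit (fh E θ)) : IsUnit (l0 e A θ) := by
  rw [fh_fac e] at h
  exact isUnit_of_mul_isUnit_left h

theorem fh_smul (c : A) (θ : Ls A) : fh E (c • θ) = c ^ 3 * fh E θ := by
  rw [fh, fh, HahnSeries.coeff_smul, HahnSeries.coeff_smul, smul_eq_mul, smul_eq_mul]
  ring

theorem coeff_lin (α β : A) : (HahnSeries.C α + HahnSeries.C β * xs A).coeff 0 = α ∧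
    (HahnSeries.C α + HahnSeries.C β * xs A).coeff (-2) = β := by
  have x0 : (xs A).coeff 0 = 0 := HahnSeries.coeff_single_of_ne (by norm_num)
  have c0 : (HahnSeries.C α : Ls A).coeff 0 = α := HahnSeries.coeff_single_same _ _
  have c2 : (HahnSeries.C α : Ls A).coeff (-2) = 0 := HahnSeries.coeff_single_of_ne (by norm_num)
  rw [HahnSeries.coeff_add, HahnSeries.coeff_add, C_mul, HahnSeries.coeff_smul,
    HahnSeries.coeff_smul, x0, c0, c2, xs_coeff, smul_zero, add_zero, zero_add, smul_eq_mul, mul_one]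
  exact ⟨rfl, rfl⟩

theorem thM_b (p : A) : thM e .b p = HahnSeries.C (da e A + (p - ea e A) * ea e A) +
    HahnSeries.C (-(p - ea e A)) * xs A := by
  rw [thM, map_add, map_mul, map_neg]
  ring

theorem l0_thM (p : A) : l0 e A (thM e .b p) = da e A := by
  rw [l0_apply, thM_b, (coeff_lin _ _).1, (coeff_lin _ _).2]
  ring

theorem fh_thM (p : A) : fh E (thM e .b p) = da e A ^ 2 * gv e p := by
  rw [fh_fac e, l0_thM, thM_b, (coeff_lin _ _).1, (coeff_lin _ _).2, gv, d_eq]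
  ring

/-- If `g(p) thM` and `(p - e) thM` are multiples of `θ`, then `g(p)` is a unit. -/
theorem unit_g {p c c' : A} {θ : Ls A} (hu : IsUnit (fh E θ)) (h : gv e p • thM e .b p = c • θ)
    (h' : (p - ea e A) • thM e .b p = c' • θ) : IsUnit (gv e p) := by
  have h1 : da e A • thM e .b p = (c - (p + 2 * ea e A) * c') • θ := by
    rw [sub_smul, mul_smul, ← h, ← h', ← mul_smul, ← sub_smul, gv, d_eq]
    congr 1
    ring
  have h2 := congrArg (l0 e A) h1
  have h3 := congrArg (fh E) h1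
  rw [map_smul, map_smul, l0_thM, smul_eq_mul, smul_eq_mul] at h2
  rw [fh_smul, fh_smul, fh_thM] at h3
  have h4 : IsUnit (c - (p + 2 * ea e A) * c') :=
    isUnit_of_mul_isUnit_left (h2 ▸ (d_unit e).mul (d_unit e))
  exact isUnit_of_mul_isUnit_right (isUnit_of_mul_isUnit_right (h3 ▸ (h4.pow 3).mul hu))

theorem det_two (u w : Ls A) (Y : Fin 3 → A) :
    (u • (1 : Matrix (Fin 2) (Fin 2) (Ls A)) + w • cm (h2 Y)).det =
      u ^ 2 - w ^ 2 * HahnSeries.C (Y ⬝ᵥ Y) := by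
  have hI := congrArg (HahnSeries.C : A →+* Ls A) (iota_I (algebraMap ℂ A))
  rw [map_mul, map_neg, map_one] at hI
  rw [h2, pm_eq, det_fin_two]
  simp [cm_apply, dotProduct, Fin.sum_univ_three, -HahnSeries.C_apply]
  linear_combination (w ^ 2 * HahnSeries.C (Y 1) ^ 2) * hI

theorem sig_scalar (p : A) (Y : Matrix (Fin N) (Fin N) A) :
    sig E (p • 1) Y = sI p • (ys E A • 1 + cm Y) := by
  rw [sig, rhoI_scalar, mul_smul_comm, mul_one]

theorem ord_pair {u w : Ls A} (hu : Ord (-1) u) (hw : Ord (-1) w) (Y : Matrix (Fin N) (Fin N) A) :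
    OrdM (-1) (u • (1 : Matrix (Fin N) (Fin N) (Ls A)) + w • cm Y) :=
  (OrdM.smul (b := 0) hu lead_one.ord).add (OrdM.smul (b := 0) hw (lead_cm Y).ord)

theorem col_J {M : Submodule A (Fin N → Ls A)} {w : Ls A} (hw : IsJ e w)
    {S : Matrix (Fin N) (Fin N) (Ls A)} (hS : Col M S) : Col (J e M) (w • S) :=
  fun j => hw.mem (hS j)

theorem C_gv (p : A) : (HahnSeries.C (gv e p) : Ls A) =
    HahnSeries.C p ^ 2 + cc A e.e * HahnSeries.C p + (cc A e.e ^ 2 + cc A E.a) := by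
  rw [gv, map_add, map_add, map_add, map_mul, map_pow, map_pow]
  rfl

theorem thM_b' (p : A) : thM e .b p =
    3 * cc A e.e ^ 2 + cc A E.a - (HahnSeries.C p - cc A e.e) * (xs A - cc A e.e) := by
  rw [thM, map_sub, ← cc_d]
  rfl

theorem col_sigma (p : A) (Y : Matrix (Fin N) (Fin N) A) : Col (J e (U E (p • 1) Y))
    ((ji e A * sI p * ((HahnSeries.C p - cc A e.e) * ys E A)) • 1 +
      (ji e A * sI p * (xs A - cc A e.e)) • cm Y) := by
  have h := (col_J e (Or.inl rfl) (col_lat_right (rho (p • 1)) (sig E (p • 1) Y))).sub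
    (col_J e (Or.inr rfl) (col_lat_left (rho (p • 1)) (sig E (p • 1) Y)))
  have k1 := j1_ji (A := A) e
  have k2 := j1_j1 (A := A) e
  have k3 := sr_mul_sI p
  have k4 := sr_mul_sr p
  refine (congrArg (Col _) ?_).mp h
  rw [sig_scalar, rho_scalar, smul_add, smul_add, smul_smul, smul_smul, smul_smul, smul_smul,
    add_sub_right_comm, ← sub_smul, j2]
  congr 2
  · linear_combination (ji e A * sI p * ys E A) * (k2 - k4) - (j1 e A * sI p * ys E A) * k1 +
      (ys E A * ji e A * sr p) * k3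
  · linear_combination (ji e A * sI p) * k2 - (j1 e A * sI p) * k1

theorem col_tau (p : A) (Y : Matrix (Fin N) (Fin N) A) : Col (J e (U E (p • 1) Y))
    ((ji e A * sI p * (HahnSeries.C (gv e p) * (xs A - cc A e.e))) • 1 +
      (ji e A * sI p * ys E A) • cm Y) := by
  have h := (col_J e (Or.inr rfl) (col_lat_right (rho (p • 1)) (sig E (p • 1) Y))).sub
    (col_J e (Or.inl rfl) ((col_lat_left (rho (p • 1)) (sig E (p • 1) Y)).smul (stab_lat _ _)
      ((Px A).add_mem ((Px A).add_mem xs_mem_Px (C_mem_Px p)) (cc_mem e.e))))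
  have k1 := j1_ji (A := A) e
  have k2 := j1_j1 (A := A) e
  have k3 := sr_mul_sI p
  have k4 := sr_mul_sr p
  have k5 := yy (A := A) e
  refine (congrArg (Col _) ?_).mp h
  rw [sig_scalar, rho_scalar, smul_add, smul_add, smul_smul, smul_smul, smul_smul, smul_smul,
    smul_smul, add_sub_right_comm, ← sub_smul, j2, C_gv]
  rw [gx] at k5
  congr 2
  · linear_combination (ji e A * sI p) * k5 + (xs A + HahnSeries.C p + cc A e.e) *
      ((j1 e A * sr p) * k1 + (j1 e A * sr p * j1 e A * ji e A) * k3 -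
        (ji e A * sI p * (sr p * sr p)) * k2 - (ji e A * sI p * (xs A - cc A e.e)) * k4)
  · ring

theorem core (hC : CRD) {v : ℕ × Fin 2 → Fin 2 → Ls A} {M : Submodule A (Fin 2 → Ls A)} (hv : Adm v)
    (hM : LinearMap.range (lin v) = M) (hs : Stab (Rg E A) M)
    (hf : Frm E (F2.map (algebraMap ℂ A)) M) (hu : IsUnit (fh E (Th v))) :
    ∃ (a : Matrix (Fin 2) (Fin 2) (Ls A)) (p : A) (Y : Fin 3 → A), Lead 0 a 1 ∧ InG SL2 a ∧
      Y ⬝ᵥ Y = P286EN.fv E p ∧ IsUnit (gv e p) ∧ M = (tw e 1 (U E (p • 1) (h2 Y))).map (act a) := by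
  have h1 := cpb hC E e A 2 (by norm_num) v M hv hM hs (vol_two hf) (unit_l0 e hu)
  obtain ⟨w, hw⟩ := (unit_l0 e hu).exists_left_inv
  have hsup := (hC E A 2 v M hv hM (vol_two hf) (w • l0 e A) hw).1
  obtain ⟨a, p, Y, ha, hG, hY, h3⟩ := nf_SL2 (stab_tw hs) h1 (by
    rw [tw_one hs]
    exact frm_J hf)
  have h4 : M = (tw e 1 (U E (p • 1) (h2 Y))).map (act a) := by
    rw [tw_map (π' := 1) hG.mul_adj (by rw [mul_one, one_mul]), ← h3, tw_one_one hs]
  have hd : a.det = 1 := hG.det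
  have key : ∀ u z : Ls A, Col (J e (U E (p • 1) (h2 Y))) (u • 1 + z • cm (h2 Y)) → Ord (-1) u →
      Ord (-1) z → ∃ c : A, u ^ 2 - z ^ 2 * HahnSeries.C (P286EN.fv E p) = c • Th v :=
    fun u z hc hu hz => by
      obtain ⟨c, h5⟩ := pl A 2 v M hv hM hsup (a * (u • 1 + z • cm (h2 Y)))
        (Col.act (fun m hm => by
          rw [h4, tw_one (stab_U (mpt_SL2 hY))]
          exact ⟨m, hm, rfl⟩) hc) (ha.ord.mul (ord_pair hu hz _))
      rw [det_mul, hd, one_mul, det_two, hY] at h5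
      exact ⟨c, h5⟩
  have o2 : Ord 2 (ji e A * sI p) := (ord_sI _).mul' (ord_sI p)
  have ox : Ord (-2) (xs A - cc A e.e) := ord_xs.sub ((Ord.C _).mono (by norm_num))
  have k1 := sI_sq (ea e A)
  have k2 := sI_sq p
  have k5 := yy (A := A) e
  rw [gx] at k5
  change ji e A * ji e A * (xs A - cc A e.e) = 1 at k1
  obtain ⟨c, hc⟩ := key _ _ (col_tau e p (h2 Y))
    ((o2.mul' ((Ord.C _).mul_left ox)).mono (by norm_num)) (o2.mul' (ord_ys E))
  obtain ⟨c', hc'⟩ := key _ _ (col_sigma e p (h2 Y))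
    (o2.mul' (((Ord.C _).sub (Ord.C _)).mul_left (ord_ys E))) ((o2.mul' ox).mono (by norm_num))
  rw [f_fac e, map_mul, map_sub, ← cc_e] at hc hc'
  refine ⟨a, p, Y, ha, hG, hY, unit_g e (c := c) (c' := -c') hu ?_ ?_, h4⟩
  · rw [← hc, ← C_mul, thM_b', C_gv]
    linear_combination ((ji e A * sI p) ^ 2 * (HahnSeries.C p - cc A e.e) * (HahnSeries.C p ^ 2 +
      cc A e.e * HahnSeries.C p + (cc A e.e ^ 2 + cc A E.a))) * k5 - (HahnSeries.C p ^ 2 +
      cc A e.e * HahnSeries.C p + (cc A e.e ^ 2 + cc A E.a)) * (3 * cc A e.e ^ 2 + cc A E.a -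
      (HahnSeries.C p - cc A e.e) * (xs A - cc A e.e)) *
      (k1 + (ji e A * ji e A * (xs A - cc A e.e)) * k2)
  · rw [neg_smul, ← hc', ← C_mul, thM_b', map_sub, ← cc_e, C_gv]
    linear_combination ((ji e A * sI p) ^ 2 * (HahnSeries.C p - cc A e.e) ^ 2) * k5 -
      (HahnSeries.C p - cc A e.e) * (3 * cc A e.e ^ 2 + cc A E.a -
      (HahnSeries.C p - cc A e.e) * (xs A - cc A e.e)) *
      (k1 + (ji e A * ji e A * (xs A - cc A e.e)) * k2)

theorem nfo2b (hC : CRD) : NFO SL2 .b := by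
  intro E e A _ _ _ v M T hO hv hM hu
  obtain ⟨a, p, Y, ha, hG, hY, hg, h⟩ := core e hC hv hM hO.reg hO.form hu
  refine ⟨a, p, Y, 1, hG, ha.ord, ⟨hY, fun _ => ⟨hg, rfl⟩, fun h => (nomatch h),
    fun h => absurd rfl h⟩, ?_⟩
  have hX : ea e A • (1 : Matrix (Fin 2) (Fin 2) A) + Ring.inverse (gv e p) • (h2 Y * h2 Y) =
      p • 1 := by
    rw [pm_sq, hY, f_fac e, smul_smul, ← add_smul, mul_left_comm, Ring.inverse_mul_cancel _ hg,
      mul_one, add_sub_cancel]
  rw [← hX, ← cm_one] at h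
  exact h

end

end Vale.Agent.P286E64
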